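import Vale.Agent.Lib.P358.GBasic

/-!
# P358, general parameters: skeleton (exact statements of the modules G1 - G6)

Each module is its own file `Vale/Agent/Lib/P358/G<i>.lean`, importing `GBasic` and the modules it
needs; the statements below (and their names) must be kept.  See `notes/P358_general.md`.
-/

namespace Vale.Agent.Lib.P358

open Matrix MeasureTheory intervalIntegral
open scoped ComplexOrder

section G1
/-! ## Module G1 (G1.lean): the dual potentials, explicit -/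

theorem exists_pot {x y q s : ℝ} (hx : 0 < x) (hy : 0 < y) (hq : 0 < q) (hs : 0 < s) :
    ∃ F G : ℝ → ℝ, Pot F x q ∧ Pot G y s ∧
      (∀ k k', 0 ≤ k → 0 ≤ k' → F k + G k' ≤ Real.log (1 + k + k')) ∧
      (∀ r, 0 < r → F (x / (r + q)) + G (y / (r + s)) =
        Real.log (1 + x / (r + q) + y / (r + s))) := by
  sorry

end G1

section G2
/-! ## Module G2 (G2.lean): Schur complement and Peierls' inequality -/

theorem ld_lower {k m n : Type*} [Fintype k] [DecidableEq k] [Fintype m] [DecidableEq m]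
    [Fintype n] [DecidableEq n] (A : Matrix k m ℂ) (B : Matrix k n ℂ) {Q : Matrix m m ℂ}
    {R : Matrix n n ℂ} (hQ : Q.PosSemidef) (hR : R.PosSemidef) {F G : ℝ → ℝ}
    (hF : ∀ k, 0 ≤ k → ∃ g, ∀ t, 0 ≤ t → F t ≤ F k + g * (t - k))
    (hG : ∀ k, 0 ≤ k → ∃ g, ∀ t, 0 ≤ t → G t ≤ G k + g * (t - k))
    (hFG : ∀ k k', 0 ≤ k → 0 ≤ k' → F k + G k' ≤ Real.log (1 + k + k')) {r : ℝ} (hr : 0 < r) :
    ∑ i, F ((resK_posSemidef A hQ hr).isHermitian.eigenvalues i) +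
        ∑ i, G ((resK_posSemidef B hR hr).isHermitian.eigenvalues i) ≤
      ld (fromBlocks (Aᴴ * A + Q) (Aᴴ * B) (Bᴴ * A) (Bᴴ * B + R)) r - ld Q r - ld R r := by
  sorry

end G2

section G3
/-! ## Module G3 (G3.lean): counting eigenvalues -/

theorem count_one {k m : Type*} [Fintype k] [DecidableEq k] [Fintype m] [DecidableEq m]
    (A : Matrix k m ℂ) {Q : Matrix m m ℂ} (hQ : Q.PosSemidef) {r κ : ℝ} (hr : 0 < r)
    (hκ : 0 < κ) :
    ∑ j, (if κ * r < (gram_sub_isHermitian A hQ κ).eigenvalues j then (1 : ℝ) else 0) ≤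
      ∑ i, (if κ < (resK_posSemidef A hQ hr).isHermitian.eigenvalues i then (1 : ℝ) else 0) := by
  sorry

theorem count_two {k m : Type*} [Fintype k] [DecidableEq k] [Fintype m] [DecidableEq m]
    (A : Matrix k m ℂ) {Q : Matrix m m ℂ} (hQ : Q.PosSemidef) {r κ : ℝ} (hr : 0 < r)
    (hκ : 0 < κ) :
    ∑ j, (if κ * (r + Q.trace.re) <
        (posSemidef_conjTranspose_mul_self A).isHermitian.eigenvalues j then (1 : ℝ) else 0) ≤
      ∑ i, (if κ < (resK_posSemidef A hQ hr).isHermitian.eigenvalues i then (1 : ℝ) else 0) := by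
  sorry

theorem gram_sub_sum {k m : Type*} [Fintype k] [Fintype m] [DecidableEq m]
    (A : Matrix k m ℂ) {Q : Matrix m m ℂ} (hQ : Q.PosSemidef) (κ : ℝ) :
    ∑ j, (gram_sub_isHermitian A hQ κ).eigenvalues j =
      (Aᴴ * A).trace.re - κ * Q.trace.re := by
  sorry

theorem gram_sub_le {k m : Type*} [Fintype k] [Fintype m] [DecidableEq m]
    (A : Matrix k m ℂ) {Q : Matrix m m ℂ} (hQ : Q.PosSemidef) {κ : ℝ} (hκ : 0 < κ) (j : m) :
    (gram_sub_isHermitian A hQ κ).eigenvalues j ≤ (Aᴴ * A).trace.re := by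
  sorry

end G3

section G4
/-! ## Module G4 (G4.lean): the one-sided lemma (real analysis only) -/

theorem one_sided {k m : Type*} [Fintype k] [Fintype m] {F : ℝ → ℝ} {x q w : ℝ}
    (hx : 0 < x) (hq : 0 < q) (hw : 0 ≤ w) (hF : Pot F x q)
    (ρ : m → ℝ) (hρ : ∀ j, 0 ≤ ρ j) (hρx : ∑ j, ρ j = x)
    (lam : ℝ → m → ℝ) (hlam : ∀ κ, 0 < κ → ∑ j, lam κ j = x - κ * q)
    (hlamx : ∀ κ, 0 < κ → ∀ j, lam κ j ≤ x)
    (a : ℝ → k → ℝ) (ha : ∀ r, 0 < r → ∀ i, 0 ≤ a r i)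
    (hc1 : ∀ r, 0 < r → ∀ κ, 0 < κ → ∑ j, (if κ * r < lam κ j then (1 : ℝ) else 0) ≤
      ∑ i, (if κ < a r i then (1 : ℝ) else 0))
    (hc2 : ∀ r, 0 < r → ∀ κ, 0 < κ → ∑ j, (if κ * (r + w) < ρ j then (1 : ℝ) else 0) ≤
      ∑ i, (if κ < a r i then (1 : ℝ) else 0)) {ε : ℝ} (hε : 0 < ε) :
    ∃ R₀ : ℝ, 0 < R₀ ∧ ∀ R, R₀ ≤ R → ∃ f : ℝ → ℝ, IntervalIntegrable f volume 0 R ∧
      (∀ r, 0 < r → r < R → f r ≤ ∑ i, F (a r i)) ∧
      (∫ r in (0 : ℝ)..R, F (x / (r + q))) + ∑ j, Real.negMulLog (ρ j) - Real.negMulLog x - ε ≤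
        ∫ r in (0 : ℝ)..R, f r := by
  sorry

end G4

section G5
/-! ## Module G5 (G5.lean): limit `R → ∞` and the block inequality -/

/-- balanced sums, integrated version -/
theorem balanced_int {κ : Type*} [Fintype κ] (e l : κ → ℝ) (hl : ∀ i, 0 ≤ l i)
    (h0 : ∑ i, e i * l i = 0)
    (hr : ∀ ε : ℝ, 0 < ε → ∃ R₀ : ℝ, 0 < R₀ ∧ ∀ R, R₀ ≤ R →
      -ε ≤ ∫ r in (0 : ℝ)..R, ∑ i, e i * Real.log (1 + l i / r)) :
    0 ≤ ∑ i, e i * Real.negMulLog (l i) := by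
  sorry

theorem b4 {k m n : Type*} [Fintype k] [DecidableEq k] [Fintype m] [DecidableEq m] [Fintype n]
    [DecidableEq n] (A : Matrix k m ℂ) (B : Matrix k n ℂ) {Q : Matrix m m ℂ} {R : Matrix n n ℂ}
    (hQ : Q.PosSemidef) (hR : R.PosSemidef) {x y q s : ℝ} (hx : 0 < x) (hy : 0 < y) (hq : 0 < q)
    (hs : 0 < s) (hxA : (Aᴴ * A).trace.re = x) (hyB : (Bᴴ * B).trace.re = y)
    (hqQ : Q.trace.re = q) (hsR : R.trace.re = s) :
    eta (Aᴴ * A) + eta (Bᴴ * B) + eta Q + eta R +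
        (ent2 (x + q + y + s) ((x + q) * (y + s) - x * y) - Real.negMulLog x - Real.negMulLog y
          - Real.negMulLog q - Real.negMulLog s) ≤
      eta (fromBlocks (Aᴴ * A + Q) (Aᴴ * B) (Bᴴ * A) (Bᴴ * B + R)) := by
  sorry

end G5

section G6
/-! ## Module G6 (G6.lean): the key inequality for all parameters -/

/-- superadditivity; this is `keyIneq_zero` at `γ = 1` with `Y = 0` -/
theorem eta_superadd {m : Type} [Fintype m] [DecidableEq m] {X Z : Matrix m m ℂ}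
    (hX : X.PosSemidef) (hZ : Z.PosSemidef) :
    eta X + eta Z + (Real.negMulLog (X.trace.re + Z.trace.re) - Real.negMulLog X.trace.re
      - Real.negMulLog Z.trace.re) ≤ eta (X + Z) := by
  sorry

theorem keyIneq_all {γ ν : ℝ} (hγ : γ ∈ Set.Icc (0 : ℝ) 1) (hν : ν ∈ Set.Icc (0 : ℝ) 1) :
    KeyIneq γ ν := by
  sorry

end G6

end Vale.Agent.Lib.P358
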